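import Vale.Agent.P133.Main

/-!
For a separable C*-algebra whose central sequence algebra has no characters the three notions of
pure infiniteness coincide.
-/

open Filter

namespace Vale.Agent.Results.P133.NoCharacters

universe u

theorem result (A : Type u) [NonUnitalCStarAlgebra A] [TopologicalSpace.SeparableSpace A]
    (ω : Ultrafilter ℕ) (hω : (ω : Filter ℕ) ≤ cofinite)
    (he : IsEmpty (Vale.Agent.P095.General.CentralCharA ω A)) :
    (Vale.Agent.P133.IsWeaklyPurelyInfinite A ↔ Vale.Agent.P133.IsPurelyInfinite A) ∧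
      (Vale.Agent.P133.IsPurelyInfinite A ↔ Vale.Agent.P133.IsStronglyPurelyInfinite A) :=
  ⟨⟨Vale.Agent.P133.purely_of_weakly hω he, Vale.Agent.P133.weakly_of_purely⟩,
    ⟨Vale.Agent.P133.strongly_of_purely hω he, Vale.Agent.P133.purely_of_strongly⟩⟩

end Vale.Agent.Results.P133.NoCharacters
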